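import Vale.Agent.P366.H177.Final5

namespace Vale.Agent.Results.P366.TimeFlat
open Vale.Agent.P366 Vale.Agent.P366.Stmt Vale.Agent.T4 Vale.Agent.H177

/-- The sharp spacetime Penrose inequality and its equality case for initial data without symmetry
whose centred spheres outside the boundary are time flat (their torsion with respect to the mean
curvature vector is divergence free, of any size) and homogeneous with an arbitrary lapse, or the
leaves of an inverse mean curvature flow. The momentum is shown to vanish. More generally either of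
two sharp conditions on the torsion term gives the bound with the energy, and, with any constant
smaller than the sharp one, its equality case; the second one contains the time flat spheres. If
`n = 3` no curvature condition is needed for the leaves of an inverse mean curvature flow: it is
proved by the Gauss-Bonnet theorem. -/
theorem result (n : ℕ) (hn : 3 ≤ n) (D : Stmt.Exterior n) (hAF : D.IsAF) (hDEC : D.DEC)
    (hT : D.Trapped) (m : ℝ) (P : Fin n → ℝ) (hm : D.IsEnergy m) (hP : D.IsMomentum P)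
    (R₁ : ℝ) (hR₁ : IsGreatest {r | ∃ x, D.F x = 0 ∧ len x = r} R₁)
    (hperp : ∀ x, R₁ ≤ len x → ∀ i, ∑ j, D.g x i j * x j = radial D.g x * x i)
    (hleaf : (∃ Γ, TransGroup n Γ ∧ InvUnder Γ R₁ (spherical D.g)) ∨
      ∃ ρ : ℝ → ℝ, (∀ r, R₁ ≤ r → 0 < ρ r) ∧
        (∀ x, R₁ ≤ len x →
          (mat (unitLapse D.g) x).det = (ρ (len x) / len x) ^ (2 * (n - 1))) ∧
        (n = 3 ∨ ∀ r, R₁ < r → sph (vol n) r (sphereScal D.g) / Stmt.omega n ≤
          ((n : ℝ) - 1) * ((n : ℝ) - 2) / ρ r ^ 2))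
    (θ : ℝ → ℝ) (hθ : ∀ r, θ r ≤ 1) (hK : TorsionClass D.g D.K θ R₁) :
    D.Amin ≠ ⊤ ∧ 0 < m ∧
    (D.Amin.toReal / Stmt.omega n) ^ (((n : ℝ) - 2) / (n - 1)) / 2 ≤ m ∧
    ((∀ᶠ r in Filter.atTop, TimeFlat D.g D.K r) →
      P = 0 ∧ √(∑ i, P i ^ 2) < m ∧
      (D.Amin.toReal / Stmt.omega n) ^ (((n : ℝ) - 2) / (n - 1)) / 2 ≤
        √(m ^ 2 - ∑ i, P i ^ 2)) ∧
    ((∀ r, θ r < 1) → Outermost D →
      (D.Amin.toReal / Stmt.omega n) ^ (((n : ℝ) - 2) / (n - 1)) / 2 = m →
      P = 0 ∧ IsSlice m D.g D.K {x | R₁ < len x}) := by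
  obtain ⟨h1, h2, h3, h4, h5⟩ := finalU hn hAF hDEC hT hm hP hR₁ hperp hleaf hθ hK
  refine ⟨h1, h2, h3, fun hF => ?_, h5⟩
  have hP0 := h4 hF
  subst hP0
  refine ⟨rfl, ?_, ?_⟩
  · simpa using h2
  · simpa [Real.sqrt_sq h2.le] using h3

end Vale.Agent.Results.P366.TimeFlat
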